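import Vale.Agent.P256.H721.Lift

/-! Instances of the quadratic extension: determinants `det (r Y - N(x))` for a matrix `N(x)` of
quadratic forms which is positive semidefinite at every real point. -/

namespace Vale.Agent.P256

open Matrix

variable {m : ℕ}

/-- the matrix entries as a vector -/
noncomputable def vecE : Matrix (Fin m) (Fin m) ℝ →ₗ[ℝ] (Fin (m * m) → ℝ) where
  toFun A i := A (finProdFinEquiv.symm i).1 (finProdFinEquiv.symm i).2
  map_add' _ _ := rfl
  map_smul' _ _ := rfl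

theorem vecE_apply (A : Matrix (Fin m) (Fin m) ℝ) (a b : Fin m) :
    vecE A (finProdFinEquiv (a, b)) = A a b := by
  show A (finProdFinEquiv.symm (finProdFinEquiv (a, b))).1
    (finProdFinEquiv.symm (finProdFinEquiv (a, b))).2 = _
  rw [Equiv.symm_apply_apply]

/-- the symmetric part of the matrix with the given entries -/
noncomputable def symM : (Fin (m * m) → ℝ) →ₗ[ℝ] Matrix (Fin m) (Fin m) ℝ where
  toFun y := Matrix.of fun a b => 2⁻¹ * (y (finProdFinEquiv (a, b)) + y (finProdFinEquiv (b, a)))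
  map_add' x y := by
    ext a b
    simp only [Matrix.of_apply, Pi.add_apply, Matrix.add_apply]
    ring
  map_smul' c x := by
    ext a b
    simp only [Matrix.of_apply, Pi.smul_apply, Matrix.smul_apply, smul_eq_mul, RingHom.id_apply]
    ring

theorem symM_vecE {A : Matrix (Fin m) (Fin m) ℝ} (hA : A.IsSymm) : symM (vecE A) = A := by
  ext a b
  simp only [symM, LinearMap.coe_mk, AddHom.coe_mk, Matrix.of_apply, vecE_apply]
  rw [hA.apply b a]
  ring

theorem symM_symm (y : Fin (m * m) → ℝ) : (symM y).IsSymm := by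
  ext a b
  simp only [symM, LinearMap.coe_mk, AddHom.coe_mk, Matrix.of_apply, Matrix.transpose_apply]
  ring

/-- the determinant of the symmetric part -/
noncomputable def detP (m : ℕ) : MvPolynomial (Fin (m * m)) ℝ :=
  (Matrix.of fun a b : Fin m => MvPolynomial.C (2⁻¹ : ℝ) *
    (MvPolynomial.X (finProdFinEquiv (a, b)) + MvPolynomial.X (finProdFinEquiv (b, a)))).det

theorem eval_detP (y : Fin (m * m) → ℝ) : MvPolynomial.eval y (detP m) = (symM y).det := by
  rw [detP, RingHom.map_det]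
  congr 1
  ext a b
  simp [symM]

theorem aeval_detP (y : Fin (m * m) → ℂ) : MvPolynomial.aeval y (detP m) =
    (Matrix.of fun a b : Fin m => (2⁻¹ : ℂ) * (y (finProdFinEquiv (a, b)) +
      y (finProdFinEquiv (b, a)))).det := by
  rw [detP, AlgHom.map_det]
  congr 1
  ext a b
  simp

theorem detP_homogeneous : (detP m).IsHomogeneous m := by
  rw [detP, Matrix.det_apply]
  refine MvPolynomial.IsHomogeneous.sum _ _ _ fun σ _ => ?_
  have h : (∏ i : Fin m, (Matrix.of fun a b : Fin m => MvPolynomial.C (2⁻¹ : ℝ) *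
      (MvPolynomial.X (finProdFinEquiv (a, b)) + MvPolynomial.X (finProdFinEquiv (b, a))) :
      Matrix (Fin m) (Fin m) (MvPolynomial (Fin (m * m)) ℝ)) (σ i) i).IsHomogeneous
      (∑ _i : Fin m, 1) := by
    refine MvPolynomial.IsHomogeneous.prod _ _ _ fun i _ => ?_
    have := (MvPolynomial.isHomogeneous_C (Fin (m * m)) (2⁻¹ : ℝ)).mul
      ((MvPolynomial.isHomogeneous_X ℝ (finProdFinEquiv (σ i, i))).add
        (MvPolynomial.isHomogeneous_X ℝ (finProdFinEquiv (i, σ i))))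
    rwa [zero_add] at this
  simp only [Finset.sum_const, Finset.card_univ, Fintype.card_fin, smul_eq_mul, mul_one] at h
  rcases Int.units_eq_one_or (Equiv.Perm.sign σ) with h1 | h1
  · rw [h1, one_smul]; exact h
  · rw [h1, Units.neg_smul, one_smul]; exact h.neg

theorem det_smul_sub_ofReal {A : Matrix (Fin m) (Fin m) ℝ} (hA : A.IsSymm) (t : ℂ) :
    ∃ l : Fin m → ℝ, (t • (1 : Matrix (Fin m) (Fin m) ℂ) - A.map (fun a => (a : ℂ))).det =
      ∏ i, (t - (l i : ℂ)) := by
  have hH : (A.map (fun a => (a : ℂ))).IsHermitian := by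
    ext a b
    simp [Matrix.conjTranspose_apply, hA.apply]
  refine ⟨hH.eigenvalues, ?_⟩
  have h1 := congrArg (Polynomial.eval t) hH.charpoly_eq
  rw [Matrix.eval_charpoly, Polynomial.eval_prod] at h1
  simpa [Matrix.scalar_apply, ← Matrix.smul_one_eq_diagonal] using h1

theorem detP_hyp : IsHyperbolic (detP m) (vecE (1 : Matrix (Fin m) (Fin m) ℝ)) := by
  refine ⟨⟨m, detP_homogeneous⟩, ?_, ?_⟩
  · rw [eval_detP, symM_vecE Matrix.isSymm_one, Matrix.det_one]
    exact one_pos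
  · intro x t ht
    rw [aeval_detP] at ht
    obtain ⟨l, hl⟩ := det_smul_sub_ofReal (symM_symm x) t
    have h1 : (Matrix.of fun a b : Fin m => (2⁻¹ : ℂ) *
        ((t * ((vecE (1 : Matrix (Fin m) (Fin m) ℝ) (finProdFinEquiv (a, b)) : ℝ) : ℂ) -
          (x (finProdFinEquiv (a, b)) : ℂ)) +
        (t * ((vecE (1 : Matrix (Fin m) (Fin m) ℝ) (finProdFinEquiv (b, a)) : ℝ) : ℂ) -
          (x (finProdFinEquiv (b, a)) : ℂ)))) =
        t • (1 : Matrix (Fin m) (Fin m) ℂ) - (symM x).map (fun a => (a : ℂ)) := by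
      ext a b
      simp only [symM, LinearMap.coe_mk, AddHom.coe_mk, Matrix.of_apply, Matrix.sub_apply,
        Matrix.smul_apply, Matrix.map_apply, vecE_apply, Matrix.one_apply]
      by_cases hab : a = b
      · subst hab; simp; ring
      · rw [if_neg hab, if_neg (Ne.symm hab), if_neg hab]
        push_cast
        simp only [smul_eq_mul]
        ring
    rw [h1, hl, Finset.prod_eq_zero_iff] at ht
    obtain ⟨i, -, hi⟩ := ht
    rw [sub_eq_zero.1 hi, Complex.ofReal_im]

theorem detP_cone : hypCone (detP m) (vecE (1 : Matrix (Fin m) (Fin m) ℝ)) =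
    {y | (symM y).PosSemidef} := by
  ext y
  have hH : (symM y).IsHermitian := by
    ext a b
    simp [Matrix.conjTranspose_apply, (symM_symm y).apply]
  have key : ∀ t : ℝ, MvPolynomial.eval (t • vecE (1 : Matrix (Fin m) (Fin m) ℝ) - y) (detP m) =
      ∏ i, (t - hH.eigenvalues i) := by
    intro t
    rw [eval_detP, map_sub, map_smul, symM_vecE Matrix.isSymm_one]
    have h1 := congrArg (Polynomial.eval t) hH.charpoly_eq
    rw [Matrix.eval_charpoly, Polynomial.eval_prod] at h1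
    simpa [Matrix.scalar_apply, ← Matrix.smul_one_eq_diagonal] using h1
  rw [Set.mem_ofPred_eq, hH.posSemidef_iff_eigenvalues_nonneg]
  constructor
  · intro h i
    refine h _ ?_
    rw [key]
    exact Finset.prod_eq_zero (Finset.mem_univ i) (sub_self _)
  · intro h t ht
    rw [key, Finset.prod_eq_zero_iff] at ht
    obtain ⟨i, -, hi⟩ := ht
    rw [sub_eq_zero.1 hi]
    exact h i

theorem detP_shad : GShad (hypCone (detP m) (vecE (1 : Matrix (Fin m) (Fin m) ℝ))) := by
  rw [detP_cone]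
  have h := GShad.exists_lmi (N := m * m) (n := 0) (GShad.univ) (κ' := Empty) symM 0
    (fun x => symM_symm x) (fun z => Matrix.isSymm_zero) 0 0
  have h2 : {x : Fin (m * m) → ℝ | ∃ z : Empty → ℝ,
      (symM x + (0 : (Empty → ℝ) →ₗ[ℝ] Matrix (Fin m) (Fin m) ℝ) z).PosSemidef ∧
      (0 : (Fin (m * m) → ℝ) →ₗ[ℝ] (Fin 0 → ℝ)) x + (0 : (Empty → ℝ) →ₗ[ℝ] (Fin 0 → ℝ)) z ∈
      (Set.univ : Set (Fin 0 → ℝ))} = {y | (symM y).PosSemidef} := by
    ext x
    simp
  rwa [h2] at h

/-- `det (r(x) Y(x) - B(x,x))` for a matrix `B(x,x)` of quadratic forms, positive semidefinite at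
every real `x` -/
theorem det_ext {N : ℕ} (r : (Fin N → ℝ) →ₗ[ℝ] ℝ)
    (Y : (Fin N → ℝ) →ₗ[ℝ] Matrix (Fin m) (Fin m) ℝ)
    (B : (Fin N → ℝ) →ₗ[ℝ] (Fin N → ℝ) →ₗ[ℝ] Matrix (Fin m) (Fin m) ℝ)
    (P : MvPolynomial (Fin N) ℝ) (e' : Fin N → ℝ) (hYs : ∀ x, (Y x).IsSymm)
    (hB : ∀ x, (B x x).PosSemidef)
    (hP : ∀ x, MvPolynomial.eval x P = (r x • Y x - B x x).det)
    (hr : r e' = 1) (hY : Y e' = 1) (hBe : ∀ x, B e' x + B x e' = 0) :
    IsHyperbolic P e' ∧ GShad (hypCone P e') := by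
  have hBs : ∀ x, (B x x).IsSymm := fun x => by
    have h := (hB x).1
    rw [Matrix.IsHermitian, Matrix.conjTranspose_eq_transpose_of_trivial] at h
    exact h
  have h1 : ∀ x, (B.compr₂ vecE) x x ∈
      hypCone (detP m) (vecE (1 : Matrix (Fin m) (Fin m) ℝ)) := by
    intro x
    rw [detP_cone, Set.mem_ofPred_eq]
    show (symM (vecE (B x x))).PosSemidef
    rw [symM_vecE (hBs x)]
    exact hB x
  have h2 : ∀ x, MvPolynomial.eval x P =
      MvPolynomial.eval (r x • (vecE ∘ₗ Y) x - (B.compr₂ vecE) x x) (detP m) := by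
    intro x
    rw [hP, eval_detP]
    have h3 : r x • (vecE ∘ₗ Y) x - (B.compr₂ vecE) x x = vecE (r x • Y x - B x x) := by
      rw [map_sub, map_smul]
      rfl
    rw [h3, symM_vecE]
    exact ((hYs x).smul _).sub (hBs x)
  have h4 : (vecE ∘ₗ Y) e' = vecE (1 : Matrix (Fin m) (Fin m) ℝ) := by
    rw [LinearMap.comp_apply, hY]
  have h5 : ∀ x, (B.compr₂ vecE) e' x + (B.compr₂ vecE) x e' = 0 := by
    intro x
    show vecE (B e' x) + vecE (B x e') = 0
    rw [← map_add, hBe, map_zero]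
  exact ⟨quad_hyp detP_hyp h1 h2 hr h4 h5, quad_gshad detP_hyp detP_shad h1 h2 hr h4 h5⟩

/-- for every symmetric matrix `B(w,w)` of quadratic forms, positive semidefinite at every real
`w`, the polynomial `det (t² I - B(w,w))` is hyperbolic and its cone is a shadow -/
theorem det_sq_ext {k : ℕ} (B : (Fin k → ℝ) →ₗ[ℝ] (Fin k → ℝ) →ₗ[ℝ] Matrix (Fin m) (Fin m) ℝ)
    (hB : ∀ w, (B w w).PosSemidef) (P : MvPolynomial (Fin (k + 1)) ℝ)
    (hP : ∀ (t : ℝ) (w : Fin k → ℝ), MvPolynomial.eval (Fin.cons t w) P =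
      (t ^ 2 • (1 : Matrix (Fin m) (Fin m) ℝ) - B w w).det) :
    IsHyperbolic P (Fin.cons 1 0) ∧ IsSpectrahedralShadow (hypCone P (Fin.cons 1 0)) := by
  let r : (Fin (k + 1) → ℝ) →ₗ[ℝ] ℝ := LinearMap.proj 0
  let T : (Fin (k + 1) → ℝ) →ₗ[ℝ] (Fin k → ℝ) := LinearMap.funLeft ℝ ℝ Fin.succ
  have hT : ∀ x, T x = Fin.tail x := fun x => rfl
  have hx : ∀ x : Fin (k + 1) → ℝ, x = Fin.cons (x 0) (Fin.tail x) := fun x =>
    (Fin.cons_self_tail x).symm
  have hTe : T (Fin.cons 1 0) = 0 := by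
    funext i
    rfl
  have h := det_ext r (r.smulRight (1 : Matrix (Fin m) (Fin m) ℝ)) ((B.comp T).compl₂ T) P
    (Fin.cons 1 0) (fun x => ?_) (fun x => hB (T x)) (fun x => ?_) ?_ ?_ (fun x => ?_)
  · exact ⟨h.1, h.2.shadow⟩
  · show (r x • (1 : Matrix (Fin m) (Fin m) ℝ)).IsSymm
    exact Matrix.isSymm_one.smul _
  · show _ = (r x • (r x • (1 : Matrix (Fin m) (Fin m) ℝ)) - B (T x) (T x)).det
    rw [smul_smul, ← sq]
    conv_lhs => rw [hx x]
    rw [hP]
    rfl
  · rfl
  · show (1 : ℝ) • (1 : Matrix (Fin m) (Fin m) ℝ) = 1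
    rw [one_smul]
  · show B (T (Fin.cons 1 0)) (T x) + B (T x) (T (Fin.cons 1 0)) = 0
    rw [hTe, map_zero, map_zero, LinearMap.zero_apply, add_zero]

end Vale.Agent.P256
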