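import Vale.Agent.P256.H721.Quad

/-! The semidefinite lift of a quadratic extension. -/

namespace Vale.Agent.P256

open Matrix

/-- linear maps on a finite power as sums -/
theorem lin_eq_sum' {κ : Type*} [Fintype κ] [DecidableEq κ] {E : Type*} [AddCommGroup E]
    [Module ℝ E] (l : (κ → ℝ) →ₗ[ℝ] E) (x : κ → ℝ) : l x = ∑ j, x j • l (Pi.single j 1) := by
  conv_lhs => rw [← Finset.univ_sum_single x]
  rw [map_sum]
  refine Finset.sum_congr rfl fun i _ => ?_
  rw [← map_smul]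
  congr 1
  rw [← Pi.single_smul, smul_eq_mul, mul_one]

theorem GShad.exists_lmi {n N : ℕ} {K : Set (Fin n → ℝ)} (hK : GShad K) {ι' κ' : Type}
    [Fintype ι'] [Fintype κ'] [DecidableEq κ'] (M₁ : (Fin N → ℝ) →ₗ[ℝ] Matrix ι' ι' ℝ)
    (M₂ : (κ' → ℝ) →ₗ[ℝ] Matrix ι' ι' ℝ) (hM₁ : ∀ x, (M₁ x).IsSymm) (hM₂ : ∀ z, (M₂ z).IsSymm)
    (G₁ : (Fin N → ℝ) →ₗ[ℝ] (Fin n → ℝ)) (G₂ : (κ' → ℝ) →ₗ[ℝ] (Fin n → ℝ)) :
    GShad {x | ∃ z : κ' → ℝ, (M₁ x + M₂ z).PosSemidef ∧ G₁ x + G₂ z ∈ K} := by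
  obtain ⟨ι, κ, hι, hκ, A₀, A, C, hA₀, hA, hC, hKe⟩ := hK
  have hsymm : ∀ c : Fin n → ℝ, (∑ l, c l • A l).IsSymm := by
    intro c
    rw [Matrix.IsSymm, Matrix.transpose_sum]
    refine Finset.sum_congr rfl fun j _ => ?_
    rw [Matrix.transpose_smul, (hA j).eq]
  refine ⟨ι' ⊕ ι, κ' ⊕ κ, inferInstance, inferInstance, fromBlocks 0 0 0 A₀,
    fun i => fromBlocks (M₁ (Pi.single i 1)) 0 0 (∑ l, G₁ (Pi.single i 1) l • A l),
    Sum.elim (fun j => fromBlocks (M₂ (Pi.single j 1)) 0 0 (∑ l, G₂ (Pi.single j 1) l • A l))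
      (fun j => fromBlocks 0 0 0 (C j)),
    symm_blocks Matrix.isSymm_zero hA₀, fun i => symm_blocks (hM₁ _) (hsymm _), ?_, ?_⟩
  · rintro (j | j)
    · exact symm_blocks (hM₂ _) (hsymm _)
    · exact symm_blocks Matrix.isSymm_zero (hC j)
  · ext x
    simp only [Set.mem_ofPred_eq]
    have hG : ∀ {τ : Type} [Fintype τ] [DecidableEq τ] (G : (τ → ℝ) →ₗ[ℝ] (Fin n → ℝ))
        (z : τ → ℝ), ∑ j, z j • ∑ l, G (Pi.single j 1) l • A l = ∑ l, G z l • A l := by
      intro τ _ _ G z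
      have h2 : G z = ∑ i, z i • G (Pi.single i 1) := lin_eq_sum' G z
      simp_rw [h2, Finset.sum_apply, Pi.smul_apply, Finset.sum_smul, Finset.smul_sum]
      rw [Finset.sum_comm]
      refine Finset.sum_congr rfl fun j _ => Finset.sum_congr rfl fun i _ => ?_
      rw [smul_smul, smul_eq_mul]
    have key : ∀ (z : κ' → ℝ) (u : κ → ℝ), fromBlocks 0 0 0 A₀ +
        ∑ i, x i • fromBlocks (M₁ (Pi.single i 1)) 0 0 (∑ l, G₁ (Pi.single i 1) l • A l) +
        ∑ j : κ' ⊕ κ, (Sum.elim z u) j • (Sum.elim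
          (fun j => fromBlocks (M₂ (Pi.single j 1)) 0 0 (∑ l, G₂ (Pi.single j 1) l • A l))
          (fun j => fromBlocks 0 0 0 (C j)) : κ' ⊕ κ → Matrix (ι' ⊕ ι) (ι' ⊕ ι) ℝ) j =
        fromBlocks (M₁ x + M₂ z) 0 0 (A₀ + ∑ l, (G₁ x + G₂ z) l • A l + ∑ j, u j • C j) := by
      intro z u
      rw [Fintype.sum_sum_type]
      simp only [Sum.elim_inl, Sum.elim_inr]
      rw [sum_blocks, sum_blocks, sum_blocks, hG, hG, ← lin_eq_sum' M₁ x, ← lin_eq_sum' M₂ z]
      simp only [fromBlocks_add, add_zero, zero_add, Finset.sum_const_zero, smul_zero,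
        Pi.add_apply, add_smul, Finset.sum_add_distrib]
      congr 1
      abel
    constructor
    · rintro ⟨z, hz, hz2⟩
      rw [hKe] at hz2
      obtain ⟨u, hu⟩ := hz2
      refine ⟨Sum.elim z u, ?_⟩
      rw [key, psd_fromBlocks]
      exact ⟨hz, hu⟩
    · rintro ⟨w, hw⟩
      have hw' : w = Sum.elim (fun j => w (Sum.inl j)) (fun j => w (Sum.inr j)) := by
        funext j
        rcases j with j | j <;> rfl
      rw [hw', key, psd_fromBlocks] at hw
      refine ⟨_, hw.1, ?_⟩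
      rw [hKe]
      exact ⟨_, hw.2⟩

section Lin

variable {n N : ℕ} {q : MvPolynomial (Fin n) ℝ} {e : Fin n → ℝ}
  {B : (Fin N → ℝ) →ₗ[ℝ] (Fin N → ℝ) →ₗ[ℝ] (Fin n → ℝ)}

theorem mem_of_eps (hq : IsHyperbolic q e) {a b : Fin n → ℝ}
    (h : ∀ ε : ℝ, 0 < ε → ε • a + b ∈ hypCone q e) : b ∈ hypCone q e := by
  have hlim : Filter.Tendsto (fun t : ℝ => t • a + b) (nhdsWithin 0 (Set.Ioi 0)) (nhds b) := by
    have hc : Continuous fun t : ℝ => t • a + b := by fun_prop
    have := (hc.tendsto 0).mono_left (nhdsWithin_le_nhds (s := Set.Ioi 0))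
    simpa using this
  refine (isClosed_K hq).mem_of_tendsto hlim ?_
  filter_upwards [self_mem_nhdsWithin] with t ht
  exact h t ht

theorem quad_mix (hq : IsHyperbolic q e) (hBK : ∀ x, B x x ∈ hypCone q e) {v : Fin N → ℝ}
    (hv : -B v v ∈ hypCone q e) (w : Fin N → ℝ) : B w v + B v w ∈ hypCone q e := by
  refine mem_of_eps hq (a := B w w) fun ε hε => ?_
  have h1 := hBK (w + ε⁻¹ • v)
  have h2 := K_smul hq hv (sq_nonneg ε⁻¹)
  have h3 := K_smul hq (K_add hq h1 h2) hε.le
  have h4 : ε • (B (w + ε⁻¹ • v) (w + ε⁻¹ • v) + (ε⁻¹ ^ 2) • -B v v) =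
      ε • B w w + (B w v + B v w) := by
    simp only [map_add, map_smul, LinearMap.add_apply, LinearMap.smul_apply]
    have h5 : B w w + ε⁻¹ • B v w + (ε⁻¹ • (B w v + ε⁻¹ • B v v)) + (ε⁻¹ ^ 2) • -B v v =
        B w w + ε⁻¹ • (B w v + B v w) := by module
    rw [h5, smul_add, smul_smul, mul_inv_cancel₀ hε.ne', one_smul]
  rwa [h4] at h3

theorem quad_mix_neg (hq : IsHyperbolic q e) (hBK : ∀ x, B x x ∈ hypCone q e) {v : Fin N → ℝ}
    (hv : -B v v ∈ hypCone q e) (w : Fin N → ℝ) : -(B w v + B v w) ∈ hypCone q e := by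
  have h1 : -B (-v) (-v) ∈ hypCone q e := by simpa using hv
  have := quad_mix hq hBK h1 w
  have h2 : B w (-v) + B (-v) w = -(B w v + B v w) := by
    simp only [map_neg, LinearMap.neg_apply]
    abel
  rwa [h2] at this

/-- the vectors on which the quadratic map is in the lineality space -/
def quadKer (hq : IsHyperbolic q e) (hBK : ∀ x, B x x ∈ hypCone q e) :
    Submodule ℝ (Fin N → ℝ) where
  carrier := {x | -B x x ∈ hypCone q e}
  zero_mem' := by
    show -B 0 0 ∈ hypCone q e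
    simpa using K_zero hq
  add_mem' := by
    intro v w hv hw
    show -B (v + w) (v + w) ∈ hypCone q e
    have h1 := K_add hq (K_add hq hv hw) (quad_mix_neg hq hBK hv w)
    have h2 : -B v v + -B w w + -(B w v + B v w) = -B (v + w) (v + w) := by
      simp only [map_add, LinearMap.add_apply]
      abel
    rwa [h2] at h1
  smul_mem' := by
    intro c v hv
    show -B (c • v) (c • v) ∈ hypCone q e
    have h1 := K_smul hq hv (mul_self_nonneg c)
    have h2 : (c * c) • -B v v = -B (c • v) (c • v) := by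
      simp only [map_smul, LinearMap.smul_apply, smul_smul, smul_neg]
    rwa [h2] at h1

theorem exists_quad_proj (hq : IsHyperbolic q e) (hBK : ∀ x, B x x ∈ hypCone q e) :
    ∃ π : (Fin N → ℝ) →ₗ[ℝ] (Fin N → ℝ), (∀ x, π (π x) = π x) ∧
      (∀ x, π x = 0 ↔ -B x x ∈ hypCone q e) ∧ ∀ x, B (π x) (π x) - B x x ∈ hypCone q e ∧ B x x - B (π x) (π x) ∈ hypCone q e := by
  set L := quadKer hq hBK with hL
  obtain ⟨W, hW⟩ := L.exists_isCompl
  let π : (Fin N → ℝ) →ₗ[ℝ] (Fin N → ℝ) := W.subtype ∘ₗ (W.projectionOnto L hW.symm)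
  have hker : ∀ x, π x = 0 ↔ x ∈ L := by
    intro x
    show W.subtype (W.projectionOnto L hW.symm x) = 0 ↔ _
    rw [Submodule.subtype_apply, ZeroMemClass.coe_eq_zero,
      Submodule.projectionOnto_apply_eq_zero_iff]
  have hpp : ∀ x, π (π x) = π x := by
    intro x
    show W.subtype (W.projectionOnto L hW.symm (W.subtype (W.projectionOnto L hW.symm x)))
      = W.subtype (W.projectionOnto L hW.symm x)
    rw [Submodule.subtype_apply, Submodule.subtype_apply, Submodule.projectionOnto_apply_left]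
  refine ⟨π, hpp, fun x => hker x, fun x => ?_⟩
  have hv : x - π x ∈ L := by
    rw [← hker, map_sub, hpp, sub_self]
  have hv' : -B (x - π x) (x - π x) ∈ hypCone q e := hv
  have hx : B x x = B (π x) (π x) + (B (π x) (x - π x) + B (x - π x) (π x)) +
      B (x - π x) (x - π x) := by
    simp only [map_sub, LinearMap.sub_apply]
    abel
  constructor
  · have h1 := K_add hq (quad_mix_neg hq hBK hv' (π x)) hv'
    have h2 : B (π x) (π x) - B x x = -(B (π x) (x - π x) + B (x - π x) (π x)) +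
        -B (x - π x) (x - π x) := by
      rw [hx]; abel
    rwa [h2]
  · have h1 := K_add hq (quad_mix hq hBK hv' (π x)) (hBK (x - π x))
    have h2 : B x x - B (π x) (π x) = (B (π x) (x - π x) + B (x - π x) (π x)) +
        B (x - π x) (x - π x) := by
      nth_rw 1 [hx]; abel
    rwa [h2]

theorem quad_psd_sum (π : (Fin N → ℝ) →ₗ[ℝ] (Fin N → ℝ)) (v : Fin N → ℝ) :
    ∑ a, ∑ b, (v a * v b) • B (π (Pi.single a 1)) (π (Pi.single b 1)) = B (π v) (π v) := by
  have := bilin_eq_sum ((B.comp π).compl₂ π) v v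
  simpa using this.symm

/-- a positive quadratic map is positive on positive semidefinite matrices -/
theorem quad_psd_mem (hq : IsHyperbolic q e) (hBK : ∀ x, B x x ∈ hypCone q e)
    (π : (Fin N → ℝ) →ₗ[ℝ] (Fin N → ℝ)) {D : Matrix (Fin N) (Fin N) ℝ} (hD : D.PosSemidef) :
    ∑ a, ∑ b, D a b • B (π (Pi.single a 1)) (π (Pi.single b 1)) ∈ hypCone q e := by
  obtain ⟨C, rfl⟩ := psd_factor hD
  have hsum := quad_psd_sum (B := B) π
  have h1 : ∑ a, ∑ b, (Cᵀ * C) a b • B (π (Pi.single a 1)) (π (Pi.single b 1)) =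
      ∑ c, B (π (C c)) (π (C c)) := by
    simp only [← hsum, Matrix.mul_apply, Matrix.transpose_apply, Finset.sum_smul]
    have h3 : ∀ f : Fin N → Fin N → Fin N → (Fin n → ℝ),
        ∑ a, ∑ b, ∑ c, f a b c = ∑ c, ∑ a, ∑ b, f a b c := by
      intro f
      rw [Finset.sum_congr rfl (fun a _ => Finset.sum_comm), Finset.sum_comm]
    exact h3 _
  rw [h1]
  have : ∀ s : Finset (Fin N), ∑ c ∈ s, B (π (C c)) (π (C c)) ∈ hypCone q e := by
    intro s
    induction s using Finset.induction_on with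
    | empty => simpa using K_zero hq
    | insert a s ha ih =>
      rw [Finset.sum_insert ha]
      exact K_add hq (hBK _) ih
  exact this _

/-- the two parts of the block matrix `[[Z + Zᵀ, w], [wᵀ, r]]` -/
def blkM (π : (Fin N → ℝ) →ₗ[ℝ] (Fin N → ℝ)) (r : (Fin N → ℝ) →ₗ[ℝ] ℝ) :
    (Fin N → ℝ) →ₗ[ℝ] Matrix (Fin N ⊕ Unit) (Fin N ⊕ Unit) ℝ where
  toFun x := fromBlocks 0 (Matrix.of fun a _ => π x a) (Matrix.of fun _ a => π x a)
    (Matrix.of fun _ _ => r x)
  map_add' x y := by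
    ext a b
    rcases a with a | a <;> rcases b with b | b <;> simp
  map_smul' c x := by
    ext a b
    rcases a with a | a <;> rcases b with b | b <;> simp

def blkZ : (Fin N × Fin N → ℝ) →ₗ[ℝ] Matrix (Fin N ⊕ Unit) (Fin N ⊕ Unit) ℝ where
  toFun z := fromBlocks (Matrix.of fun a b => z (a, b) + z (b, a)) 0 0 0
  map_add' x y := by
    ext a b
    rcases a with a | a <;> rcases b with b | b <;> simp
    ring
  map_smul' c x := by
    ext a b
    rcases a with a | a <;> rcases b with b | b <;> simp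
    ring

/-- `z ↦ -∑ (z_ab + z_ba) B(π e_a, π e_b)` -/
def blkG (V : Fin N → Fin N → (Fin n → ℝ)) : (Fin N × Fin N → ℝ) →ₗ[ℝ] (Fin n → ℝ) where
  toFun z := -∑ a, ∑ b, (z (a, b) + z (b, a)) • V a b
  map_add' x y := by
    rw [← neg_add, ← Finset.sum_add_distrib]
    congr 1
    refine Finset.sum_congr rfl fun a _ => ?_
    rw [← Finset.sum_add_distrib]
    refine Finset.sum_congr rfl fun b _ => ?_
    rw [← add_smul]
    congr 1
    simp only [Pi.add_apply]
    ring
  map_smul' c x := by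
    simp only [RingHom.id_apply, smul_neg, Finset.smul_sum]
    congr 1
    refine Finset.sum_congr rfl fun a _ => ?_
    refine Finset.sum_congr rfl fun b _ => ?_
    rw [smul_smul]
    congr 1
    simp only [Pi.smul_apply, smul_eq_mul]
    ring

theorem quad_value {ι : Type*} [Fintype ι] (Z : Matrix ι ι ℝ) (w : ι → ℝ) (ρ : ℝ)
    (v : ι → ℝ) (s : ℝ) :
    (Sum.elim v (fun _ : Unit => s)) ⬝ᵥ ((fromBlocks Z (Matrix.of fun a _ => w a)
      (Matrix.of fun _ a => w a) (Matrix.of fun _ _ => ρ)) *ᵥ (Sum.elim v (fun _ : Unit => s))) =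
      v ⬝ᵥ (Z *ᵥ v) + 2 * s * (w ⬝ᵥ v) + ρ * s ^ 2 := by
  rw [fromBlocks_mulVec, dotProduct, Fintype.sum_sum_type]
  simp only [Sum.elim_inl, Sum.elim_inr, Function.comp_def, Pi.add_apply, mulVec, dotProduct,
    Matrix.of_apply, Finset.univ_unique, Finset.sum_singleton, mul_add, Finset.sum_add_distrib]
  have h1 : ∑ x, v x * (w x * s) = s * ∑ x, w x * v x := by
    rw [Finset.mul_sum]
    exact Finset.sum_congr rfl fun _ _ => by ring
  rw [h1]
  ring

theorem blk_psd_iff {ι : Type*} [Fintype ι] {Z : Matrix ι ι ℝ} (hZ : Z.IsSymm) (w : ι → ℝ)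
    (ρ : ℝ) : (fromBlocks Z (Matrix.of fun a _ => w a)
      (Matrix.of fun (_ : Unit) a => w a) (Matrix.of fun _ _ => ρ)).PosSemidef ↔
      ∀ (v : ι → ℝ) (s : ℝ), 0 ≤ v ⬝ᵥ (Z *ᵥ v) + 2 * s * (w ⬝ᵥ v) + ρ * s ^ 2 := by
  rw [posSemidef_iff_dotProduct_mulVec]
  constructor
  · intro h v s
    have := h.2 (Sum.elim v (fun _ => s))
    rw [star_trivial, quad_value] at this
    exact this
  · intro h
    refine ⟨?_, fun x => ?_⟩
    · ext a b
      rcases a with a | a <;> rcases b with b | b <;>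
        simp [Matrix.conjTranspose_apply, hZ.apply]
    · have hx : x = Sum.elim (fun j => x (Sum.inl j)) (fun _ => x (Sum.inr ())) := by
        funext j
        rcases j with j | j <;> rfl
      rw [hx, star_trivial, quad_value]
      exact h _ _

end Lin

section Main

variable {n N : ℕ} {q : MvPolynomial (Fin n) ℝ} {e : Fin n → ℝ} {r : (Fin N → ℝ) →ₗ[ℝ] ℝ}
  {Y : (Fin N → ℝ) →ₗ[ℝ] (Fin n → ℝ)} {B : (Fin N → ℝ) →ₗ[ℝ] (Fin N → ℝ) →ₗ[ℝ] (Fin n → ℝ)}
  {P : MvPolynomial (Fin N) ℝ} {e' : Fin N → ℝ}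

theorem quad_cone_eq (hq : IsHyperbolic q e) (hBK : ∀ x, B x x ∈ hypCone q e)
    (hP : ∀ x, MvPolynomial.eval x P = MvPolynomial.eval (r x • Y x - B x x) q)
    (hr : r e' = 1) (hY : Y e' = e) (hB : ∀ x, B e' x + B x e' = 0)
    (h0 : MvPolynomial.eval 0 q = 0) (π : (Fin N → ℝ) →ₗ[ℝ] (Fin N → ℝ))
    (hpp : ∀ x, π (π x) = π x) (hπ0 : ∀ x, π x = 0 ↔ -B x x ∈ hypCone q e)
    (hπ : ∀ x, B (π x) (π x) - B x x ∈ hypCone q e ∧ B x x - B (π x) (π x) ∈ hypCone q e) :
    hypCone P e' = {x | ∃ z : Fin N × Fin N → ℝ, (blkM π r x + blkZ z).PosSemidef ∧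
      Y x + blkG (fun a b => B (π (Pi.single a 1)) (π (Pi.single b 1))) z ∈ hypCone q e} := by
  ext x
  rw [quad_cone hq hBK hP hr hY hB h0, Set.mem_ofPred_eq]
  set w := π x with hw
  set V : Fin N → Fin N → (Fin n → ℝ) :=
    fun a b => B (π (Pi.single a 1)) (π (Pi.single b 1)) with hV
  have hM : ∀ z : Fin N × Fin N → ℝ, blkM π r x + blkZ z =
      fromBlocks (Matrix.of fun a b => z (a, b) + z (b, a)) (Matrix.of fun a _ => w a)
        (Matrix.of fun _ a => w a) (Matrix.of fun _ _ => r x) := by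
    intro z
    ext a b
    rcases a with a | a <;> rcases b with b | b <;> simp [blkM, blkZ, hw]
  have hZs : ∀ z : Fin N × Fin N → ℝ,
      (Matrix.of fun a b => z (a, b) + z (b, a) : Matrix (Fin N) (Fin N) ℝ).IsSymm := by
    intro z
    ext a b
    simp [add_comm]
  have hwsum : ∑ a, ∑ b, (w a * w b) • V a b = B (π x) (π x) := by
    rw [hV, quad_psd_sum, hw, hpp]
  constructor
  · rintro (⟨h1, h2⟩ | ⟨h1, h2, h3⟩)
    · refine ⟨fun c => (2 * r x)⁻¹ * (w c.1 * w c.2), ?_, ?_⟩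
      · rw [hM]
        refine (blk_psd_iff (hZs fun c => (2 * r x)⁻¹ * (w c.1 * w c.2)) w (r x)).2 ?_
        intro v s
        have h4 : v ⬝ᵥ ((Matrix.of fun a b => (2 * r x)⁻¹ * (w a * w b) +
            (2 * r x)⁻¹ * (w b * w a) : Matrix (Fin N) (Fin N) ℝ) *ᵥ v) =
            (r x)⁻¹ * (w ⬝ᵥ v) ^ 2 := by
          rw [sq, dotProduct, dotProduct, Finset.sum_mul_sum, Finset.mul_sum]
          refine Finset.sum_congr rfl fun a _ => ?_
          rw [mulVec, dotProduct, Finset.mul_sum, Finset.mul_sum]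
          refine Finset.sum_congr rfl fun b _ => ?_
          rw [Matrix.of_apply]
          field_simp
          ring
        show 0 ≤ v ⬝ᵥ ((Matrix.of fun a b => (2 * r x)⁻¹ * (w a * w b) +
            (2 * r x)⁻¹ * (w b * w a) : Matrix (Fin N) (Fin N) ℝ) *ᵥ v) + 2 * s * (w ⬝ᵥ v) +
            r x * s ^ 2
        rw [h4]
        have h5 : (r x)⁻¹ * (w ⬝ᵥ v) ^ 2 + 2 * s * (w ⬝ᵥ v) + r x * s ^ 2 =
            (r x)⁻¹ * (w ⬝ᵥ v + r x * s) ^ 2 := by
          field_simp
          ring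
        rw [h5]
        exact mul_nonneg (inv_nonneg.2 h1.le) (sq_nonneg _)
      · have h4 : blkG V (fun c : Fin N × Fin N => (2 * r x)⁻¹ * (w c.1 * w c.2)) =
            -((r x)⁻¹ • B (π x) (π x)) := by
          rw [← hwsum, Finset.smul_sum]
          show -∑ a, ∑ b, _ = _
          congr 1
          refine Finset.sum_congr rfl fun a _ => ?_
          rw [Finset.smul_sum]
          refine Finset.sum_congr rfl fun b _ => ?_
          rw [smul_smul]
          congr 1
          field_simp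
          ring
        rw [h4]
        have h5 : Y x + -((r x)⁻¹ • B (π x) (π x)) =
            (r x)⁻¹ • ((r x • Y x - B x x) + (B x x - B (π x) (π x))) := by
          rw [sub_add_sub_cancel, smul_sub, smul_smul, inv_mul_cancel₀ h1.ne', one_smul,
            sub_eq_add_neg]
        rw [h5]
        exact K_smul hq (K_add hq h2 (hπ x).2) (inv_nonneg.2 h1.le)
    · have hw0 : w = 0 := (hπ0 x).2 h3
      refine ⟨0, ?_, ?_⟩
      · rw [hM, blk_psd_iff (hZs _)]
        intro v s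
        rw [hw0, h1]
        simp [dotProduct, mulVec]
      · rw [map_zero, add_zero]
        exact h2
  · rintro ⟨z, hz, hz2⟩
    rw [hM, blk_psd_iff (hZs _)] at hz
    set Z : Matrix (Fin N) (Fin N) ℝ := Matrix.of fun a b => z (a, b) + z (b, a) with hZ
    have hG : blkG V z = -∑ a, ∑ b, Z a b • V a b := rfl
    have hr0 : 0 ≤ r x := by
      have := hz 0 1
      simpa using this
    rcases hr0.eq_or_lt with h1 | h1
    · right
      have hwv : w ⬝ᵥ w = 0 := by
        have h2 : ∀ s : ℝ, 0 ≤ w ⬝ᵥ (Z *ᵥ w) + 2 * s * (w ⬝ᵥ w) := by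
          intro s
          have := hz w s
          rw [← h1] at this
          simpa using this
        by_contra hne
        have h3 := h2 (-(w ⬝ᵥ (Z *ᵥ w) + 1) / (2 * (w ⬝ᵥ w)))
        have h4 : 2 * (-(w ⬝ᵥ (Z *ᵥ w) + 1) / (2 * (w ⬝ᵥ w))) * (w ⬝ᵥ w) =
            -(w ⬝ᵥ (Z *ᵥ w) + 1) := by
          field_simp
        rw [h4] at h3
        linarith
      have hw0 : w = 0 := by
        simpa using hwv
      have hZp : Z.PosSemidef := by
        rw [posSemidef_iff_dotProduct_mulVec]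
        refine ⟨hZs z, fun v => ?_⟩
        have := hz v 0
        rw [star_trivial]
        simpa using this
      refine ⟨h1.symm, ?_, (hπ0 x).1 hw0⟩
      have h2 := K_add hq hz2 (quad_psd_mem hq hBK π hZp)
      rw [hG, add_assoc, neg_add_cancel, add_zero] at h2
      exact h2
    · left
      refine ⟨h1, ?_⟩
      set D : Matrix (Fin N) (Fin N) ℝ := Matrix.of fun a b => Z a b - (r x)⁻¹ * (w a * w b)
        with hD
      have hDp : D.PosSemidef := by
        rw [posSemidef_iff_dotProduct_mulVec]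
        refine ⟨?_, fun v => ?_⟩
        · ext a b
          have := (hZs z).apply a b
          simp only [hD, Matrix.conjTranspose_apply, Matrix.of_apply, star_trivial]
          rw [← hZ] at this
          rw [this, mul_comm (w b)]
        · rw [star_trivial]
          have h2 := hz v (-(w ⬝ᵥ v) / r x)
          have h3 : v ⬝ᵥ (D *ᵥ v) = v ⬝ᵥ (Z *ᵥ v) - (r x)⁻¹ * (w ⬝ᵥ v) ^ 2 := by
            rw [sq, dotProduct, dotProduct, dotProduct, Finset.sum_mul_sum, Finset.mul_sum,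
              ← Finset.sum_sub_distrib]
            refine Finset.sum_congr rfl fun a _ => ?_
            rw [mulVec, mulVec, dotProduct, dotProduct, Finset.mul_sum, Finset.mul_sum,
              Finset.mul_sum, ← Finset.sum_sub_distrib]
            refine Finset.sum_congr rfl fun b _ => ?_
            rw [hD, Matrix.of_apply]
            ring
          rw [h3]
          have h4 : v ⬝ᵥ (Z *ᵥ v) + 2 * (-(w ⬝ᵥ v) / r x) * (w ⬝ᵥ v) +
              r x * (-(w ⬝ᵥ v) / r x) ^ 2 = v ⬝ᵥ (Z *ᵥ v) - (r x)⁻¹ * (w ⬝ᵥ v) ^ 2 := by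
            field_simp
            ring
          rwa [h4] at h2
      have h2 := quad_psd_mem hq hBK π hDp
      have h3 : ∑ a, ∑ b, D a b • B (π (Pi.single a 1)) (π (Pi.single b 1)) =
          (∑ a, ∑ b, Z a b • V a b) - (r x)⁻¹ • B (π x) (π x) := by
        rw [← hwsum, Finset.smul_sum, ← Finset.sum_sub_distrib]
        refine Finset.sum_congr rfl fun a _ => ?_
        rw [Finset.smul_sum, ← Finset.sum_sub_distrib]
        refine Finset.sum_congr rfl fun b _ => ?_
        rw [smul_smul, ← sub_smul, hD, Matrix.of_apply]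
      rw [h3] at h2
      have h4 := K_add hq (K_smul hq (K_add hq hz2 h2) h1.le) (hπ x).1
      have h5 : r x • (Y x + blkG V z + (∑ a, ∑ b, Z a b • V a b - (r x)⁻¹ • B (π x) (π x))) +
          (B (π x) (π x) - B x x) = r x • Y x - B x x := by
        rw [hG]
        have h6 : Y x + -∑ a, ∑ b, Z a b • V a b +
            (∑ a, ∑ b, Z a b • V a b - (r x)⁻¹ • B (π x) (π x)) =
            Y x - (r x)⁻¹ • B (π x) (π x) := by abel
        rw [h6, smul_sub, smul_smul, mul_inv_cancel₀ h1.ne', one_smul]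
        abel
      rwa [h5] at h4

theorem quad_gshad (hq : IsHyperbolic q e) (hS : GShad (hypCone q e))
    (hBK : ∀ x, B x x ∈ hypCone q e)
    (hP : ∀ x, MvPolynomial.eval x P = MvPolynomial.eval (r x • Y x - B x x) q)
    (hr : r e' = 1) (hY : Y e' = e) (hB : ∀ x, B e' x + B x e' = 0) :
    GShad (hypCone P e') := by
  by_cases h0 : MvPolynomial.eval 0 q = 0
  · obtain ⟨π, hpp, hπ0, hπ⟩ := exists_quad_proj hq hBK
    rw [quad_cone_eq hq hBK hP hr hY hB h0 π hpp hπ0 hπ]
    refine hS.exists_lmi (blkM π r) blkZ ?_ ?_ Y _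
    · intro x
      ext a b
      rcases a with a | a <;> rcases b with b | b <;> simp [blkM]
    · intro z
      ext a b
      rcases a with a | a <;> rcases b with b | b <;> simp [blkZ, add_comm]
  · have hPh := quad_hyp hq hBK hP hr hY hB
    have h1 : MvPolynomial.eval 0 P ≠ 0 := by
      rw [hP]
      simpa using h0
    rw [K_univ_of_eval_zero_ne hPh h1]
    exact GShad.univ

end Main

end Vale.Agent.P256
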