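import Vale.Agent.P256.Bdl.B1

/-! Quadratic extensions `q (r Y - B(x,x))` of a hyperbolic polynomial `q`, `B(x,x) ∈ K(q,e)`:
hyperbolicity, the cone, and a semidefinite lift. -/

namespace Vale.Agent.P256

open Matrix

/-! ### A polynomial given by its values -/

section Poly

variable {n N : ℕ}

/-- the polynomial of a linear form -/
noncomputable def linPoly (l : (Fin N → ℝ) →ₗ[ℝ] ℝ) : MvPolynomial (Fin N) ℝ :=
  ∑ j, MvPolynomial.C (l (Pi.single j 1)) * MvPolynomial.X j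

/-- the polynomial of a quadratic form -/
noncomputable def quadPoly (b : (Fin N → ℝ) →ₗ[ℝ] (Fin N → ℝ) →ₗ[ℝ] ℝ) :
    MvPolynomial (Fin N) ℝ :=
  ∑ j, ∑ l, MvPolynomial.C (b (Pi.single j 1) (Pi.single l 1)) *
    (MvPolynomial.X j * MvPolynomial.X l)

theorem lin_eq_sum {E : Type*} [AddCommGroup E] [Module ℝ E] (l : (Fin N → ℝ) →ₗ[ℝ] E)
    (x : Fin N → ℝ) : l x = ∑ j, x j • l (Pi.single j 1) := by
  conv_lhs => rw [← Finset.univ_sum_single x]
  rw [map_sum]
  refine Finset.sum_congr rfl fun i _ => ?_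
  rw [← map_smul]
  congr 1
  rw [← Pi.single_smul, smul_eq_mul, mul_one]

theorem eval_linPoly (l : (Fin N → ℝ) →ₗ[ℝ] ℝ) (x : Fin N → ℝ) :
    MvPolynomial.eval x (linPoly l) = l x := by
  rw [linPoly, map_sum, lin_eq_sum l x]
  refine Finset.sum_congr rfl fun i _ => ?_
  rw [map_mul, MvPolynomial.eval_C, MvPolynomial.eval_X, smul_eq_mul, mul_comm]

theorem bilin_eq_sum {E : Type*} [AddCommGroup E] [Module ℝ E]
    (b : (Fin N → ℝ) →ₗ[ℝ] (Fin N → ℝ) →ₗ[ℝ] E) (x y : Fin N → ℝ) :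
    b x y = ∑ j, ∑ l, (x j * y l) • b (Pi.single j 1) (Pi.single l 1) := by
  rw [lin_eq_sum b x, LinearMap.sum_apply]
  refine Finset.sum_congr rfl fun i _ => ?_
  rw [LinearMap.smul_apply, lin_eq_sum (b (Pi.single i 1)) y, Finset.smul_sum]
  refine Finset.sum_congr rfl fun j _ => ?_
  rw [smul_smul]

theorem eval_quadPoly (b : (Fin N → ℝ) →ₗ[ℝ] (Fin N → ℝ) →ₗ[ℝ] ℝ) (x : Fin N → ℝ) :
    MvPolynomial.eval x (quadPoly b) = b x x := by
  rw [quadPoly, map_sum, bilin_eq_sum b x x]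
  refine Finset.sum_congr rfl fun i _ => ?_
  rw [map_sum]
  refine Finset.sum_congr rfl fun j _ => ?_
  rw [map_mul, map_mul, MvPolynomial.eval_C, MvPolynomial.eval_X, MvPolynomial.eval_X,
    smul_eq_mul, mul_comm]

theorem isHomogeneous_linPoly (l : (Fin N → ℝ) →ₗ[ℝ] ℝ) : (linPoly l).IsHomogeneous 1 := by
  refine MvPolynomial.IsHomogeneous.sum _ _ _ fun i _ => ?_
  have h := (MvPolynomial.isHomogeneous_C (Fin N) (l (Pi.single i 1))).mul
    (MvPolynomial.isHomogeneous_X ℝ i)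
  rwa [zero_add] at h

theorem isHomogeneous_quadPoly (b : (Fin N → ℝ) →ₗ[ℝ] (Fin N → ℝ) →ₗ[ℝ] ℝ) :
    (quadPoly b).IsHomogeneous 2 := by
  refine MvPolynomial.IsHomogeneous.sum _ _ _ fun i _ => ?_
  refine MvPolynomial.IsHomogeneous.sum _ _ _ fun j _ => ?_
  have h := (MvPolynomial.isHomogeneous_C (Fin N) (b (Pi.single i 1) (Pi.single j 1))).mul
    ((MvPolynomial.isHomogeneous_X ℝ i).mul (MvPolynomial.isHomogeneous_X ℝ j))
  rwa [zero_add] at h

/-- the `i`-th coordinate of `r Y - B(x,x)` -/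
noncomputable def coPoly (r : (Fin N → ℝ) →ₗ[ℝ] ℝ) (Y : (Fin N → ℝ) →ₗ[ℝ] (Fin n → ℝ))
    (B : (Fin N → ℝ) →ₗ[ℝ] (Fin N → ℝ) →ₗ[ℝ] (Fin n → ℝ)) (i : Fin n) :
    MvPolynomial (Fin N) ℝ :=
  linPoly r * linPoly ((LinearMap.proj i) ∘ₗ Y) - quadPoly (B.compr₂ (LinearMap.proj i))

theorem eval_coPoly (r : (Fin N → ℝ) →ₗ[ℝ] ℝ) (Y : (Fin N → ℝ) →ₗ[ℝ] (Fin n → ℝ))
    (B : (Fin N → ℝ) →ₗ[ℝ] (Fin N → ℝ) →ₗ[ℝ] (Fin n → ℝ)) (i : Fin n) (x : Fin N → ℝ) :
    MvPolynomial.eval x (coPoly r Y B i) = (r x • Y x - B x x) i := by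
  rw [coPoly, map_sub, map_mul, eval_linPoly, eval_linPoly, eval_quadPoly]
  rfl

theorem isHomogeneous_coPoly (r : (Fin N → ℝ) →ₗ[ℝ] ℝ) (Y : (Fin N → ℝ) →ₗ[ℝ] (Fin n → ℝ))
    (B : (Fin N → ℝ) →ₗ[ℝ] (Fin N → ℝ) →ₗ[ℝ] (Fin n → ℝ)) (i : Fin n) :
    (coPoly r Y B i).IsHomogeneous 2 :=
  MvPolynomial.IsHomogeneous.sub ((isHomogeneous_linPoly _).mul (isHomogeneous_linPoly _))
    (isHomogeneous_quadPoly _)

theorem eval_aeval' (q : MvPolynomial (Fin n) ℝ) (f : Fin n → MvPolynomial (Fin N) ℝ)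
    (x : Fin N → ℝ) : MvPolynomial.eval x (MvPolynomial.aeval f q) =
      MvPolynomial.eval (fun i => MvPolynomial.eval x (f i)) q := by
  induction q using MvPolynomial.induction_on with
  | C a => simp
  | add p q hp hq => rw [map_add, map_add, map_add, hp, hq]
  | mul_X p i hp =>
    rw [map_mul, map_mul, map_mul, hp, MvPolynomial.aeval_X, MvPolynomial.eval_X]

theorem ext_eq_aeval {q : MvPolynomial (Fin n) ℝ} {r : (Fin N → ℝ) →ₗ[ℝ] ℝ}
    {Y : (Fin N → ℝ) →ₗ[ℝ] (Fin n → ℝ)} {B : (Fin N → ℝ) →ₗ[ℝ] (Fin N → ℝ) →ₗ[ℝ] (Fin n → ℝ)}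
    {P : MvPolynomial (Fin N) ℝ}
    (hP : ∀ x, MvPolynomial.eval x P = MvPolynomial.eval (r x • Y x - B x x) q) :
    P = MvPolynomial.aeval (coPoly r Y B) q := by
  apply MvPolynomial.funext
  intro x
  rw [hP, eval_aeval']
  congr 1
  congr 1
  funext i
  exact (eval_coPoly r Y B i x).symm

/-- evaluation of the coordinates at a complex point `t e' - x` -/
theorem aeval_coPoly {r : (Fin N → ℝ) →ₗ[ℝ] ℝ}
    {Y : (Fin N → ℝ) →ₗ[ℝ] (Fin n → ℝ)} {B : (Fin N → ℝ) →ₗ[ℝ] (Fin N → ℝ) →ₗ[ℝ] (Fin n → ℝ)}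
    {e' : Fin N → ℝ} (hB : ∀ x, B e' x + B x e' = 0) (x : Fin N → ℝ) (t : ℂ) (i : Fin n) :
    MvPolynomial.aeval (fun j => t * (e' j : ℂ) - (x j : ℂ)) (coPoly r Y B i) =
      (t * (r e' : ℂ) - (r x : ℂ)) * (t * (Y e' i : ℂ) - (Y x i : ℂ)) - (B x x i : ℂ) := by
  have hlin : ∀ l : (Fin N → ℝ) →ₗ[ℝ] ℝ,
      MvPolynomial.aeval (fun j => t * (e' j : ℂ) - (x j : ℂ)) (linPoly l) =
        t * (l e' : ℂ) - (l x : ℂ) := by
    intro l
    rw [linPoly, map_sum, lin_eq_sum l x, lin_eq_sum l e', Complex.ofReal_sum,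
      Complex.ofReal_sum, Finset.mul_sum, ← Finset.sum_sub_distrib]
    refine Finset.sum_congr rfl fun j _ => ?_
    rw [map_mul, MvPolynomial.aeval_C, MvPolynomial.aeval_X, Complex.coe_algebraMap]
    push_cast [smul_eq_mul]
    ring
  have hquad : ∀ b : (Fin N → ℝ) →ₗ[ℝ] (Fin N → ℝ) →ₗ[ℝ] ℝ,
      MvPolynomial.aeval (fun j => t * (e' j : ℂ) - (x j : ℂ)) (quadPoly b) =
        t ^ 2 * (b e' e' : ℂ) - t * ((b e' x : ℂ) + (b x e' : ℂ)) + (b x x : ℂ) := by
    intro b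
    rw [quadPoly, map_sum, bilin_eq_sum b x x, bilin_eq_sum b e' x, bilin_eq_sum b x e',
      bilin_eq_sum b e' e']
    simp only [Complex.ofReal_sum, Finset.mul_sum, ← Finset.sum_sub_distrib,
      ← Finset.sum_add_distrib, map_sum]
    refine Finset.sum_congr rfl fun j _ => ?_
    refine Finset.sum_congr rfl fun l _ => ?_
    rw [map_mul, map_mul, MvPolynomial.aeval_C, MvPolynomial.aeval_X, MvPolynomial.aeval_X,
      Complex.coe_algebraMap]
    push_cast [smul_eq_mul]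
    ring
  rw [coPoly, map_sub, map_mul, hlin, hlin, hquad]
  have h1 : (B.compr₂ (LinearMap.proj i) : (Fin N → ℝ) →ₗ[ℝ] (Fin N → ℝ) →ₗ[ℝ] ℝ) e' x +
      (B.compr₂ (LinearMap.proj i) : (Fin N → ℝ) →ₗ[ℝ] (Fin N → ℝ) →ₗ[ℝ] ℝ) x e' = 0 := by
    have := congrFun (hB x) i
    simpa using this
  have h2 : (B.compr₂ (LinearMap.proj i) : (Fin N → ℝ) →ₗ[ℝ] (Fin N → ℝ) →ₗ[ℝ] ℝ) e' e' = 0 := by
    have := congrFun (hB e') i
    simp only [Pi.add_apply, Pi.zero_apply] at this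
    have h3 : B e' e' i = 0 := by linarith
    simpa using h3
  rw [h2, ← Complex.ofReal_add, h1]
  simp

end Poly

/-! ### Hyperbolicity -/

section Hyp

variable {n N : ℕ} {q : MvPolynomial (Fin n) ℝ} {e : Fin n → ℝ} {r : (Fin N → ℝ) →ₗ[ℝ] ℝ}
  {Y : (Fin N → ℝ) →ₗ[ℝ] (Fin n → ℝ)} {B : (Fin N → ℝ) →ₗ[ℝ] (Fin N → ℝ) →ₗ[ℝ] (Fin n → ℝ)}
  {P : MvPolynomial (Fin N) ℝ} {e' : Fin N → ℝ}

theorem quad_hyp (hq : IsHyperbolic q e) (hBK : ∀ x, B x x ∈ hypCone q e)
    (hP : ∀ x, MvPolynomial.eval x P = MvPolynomial.eval (r x • Y x - B x x) q)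
    (hr : r e' = 1) (hY : Y e' = e) (hB : ∀ x, B e' x + B x e' = 0) : IsHyperbolic P e' := by
  obtain ⟨d, hd⟩ := hq.1
  have hB0 : B e' e' = 0 := by
    have := hB e'
    rw [← two_smul ℝ] at this
    exact (smul_eq_zero.1 this).resolve_left two_ne_zero
  refine ⟨⟨2 * d, ?_⟩, ?_, ?_⟩
  · rw [ext_eq_aeval hP]
    exact hd.aeval _ fun i => isHomogeneous_coPoly r Y B i
  · rw [hP, hr, hY, hB0, one_smul, sub_zero]
    exact hq.2.1
  · intro x t ht
    rw [ext_eq_aeval hP, MvPolynomial.comp_aeval_apply] at ht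
    simp only [aeval_coPoly hB, hr, hY] at ht
    by_contra him
    set u : ℂ := t - (r x : ℂ) with hu
    have huim : u.im = t.im := by rw [hu]; simp
    have hu0 : u ≠ 0 := by
      intro h
      apply him
      rw [← huim, h]
      simp
    have hns : 0 < Complex.normSq u := Complex.normSq_pos.2 hu0
    have hE : InOpen q e (((Complex.normSq u)⁻¹ • B x x) + e) :=
      K_add_open hq (K_smul hq (hBK x) (inv_nonneg.2 hns.le)) (e_inOpen hq)
    have hkey := (garding1 hq hE).ne_zero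
      (u.re • e + (r x • e - Y x) - (u.re * (Complex.normSq u)⁻¹) • B x x)
      (Complex.I * (u.im : ℂ)) (by simp [huim, him])
    apply hkey
    have hfun : (fun i => (t * ((1 : ℝ) : ℂ) - (r x : ℂ)) * (t * (e i : ℂ) - (Y x i : ℂ)) -
        (B x x i : ℂ)) = fun i => u * ((((u.re • e + (r x • e - Y x) -
          (u.re * (Complex.normSq u)⁻¹) • B x x) i : ℝ) : ℂ) + (Complex.I * (u.im : ℂ)) *
          ((((Complex.normSq u)⁻¹ • B x x + e) i : ℝ) : ℂ)) := by
      funext i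
      simp only [Pi.add_apply, Pi.sub_apply, Pi.smul_apply, smul_eq_mul]
      have h1 : t = u + (r x : ℂ) := by rw [hu]; ring
      have h2 : (u.re : ℂ) + Complex.I * (u.im : ℂ) = u := by
        rw [mul_comm]; exact Complex.re_add_im u
      have h3 : ((Complex.normSq u : ℝ) : ℂ) = u * ((u.re : ℂ) - Complex.I * (u.im : ℂ)) := by
        rw [mul_comm Complex.I, ← Complex.mul_conj]
        congr 1
        apply Complex.ext <;> simp
      have h4 : u * (((u.re : ℂ) - Complex.I * (u.im : ℂ)) * ((Complex.normSq u : ℝ) : ℂ)⁻¹) = 1 := by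
        rw [← mul_assoc, ← h3]
        exact mul_inv_cancel₀ (by exact_mod_cast hns.ne')
      push_cast
      rw [h1]
      linear_combination (B x x i : ℂ) * h4 + (e i : ℂ) * u * h2.symm
    rw [hfun, aeval_smul hd] at ht
    exact (mul_eq_zero.1 ht).resolve_left (pow_ne_zero _ hu0)

theorem quad_line (hP : ∀ x, MvPolynomial.eval x P = MvPolynomial.eval (r x • Y x - B x x) q)
    (hr : r e' = 1) (hY : Y e' = e) (hB : ∀ x, B e' x + B x e' = 0) (x : Fin N → ℝ) (t : ℝ) :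
    MvPolynomial.eval (x + t • e') P =
      MvPolynomial.eval ((r x + t) • (Y x + t • e) - B x x) q := by
  have hB0 : B e' e' = 0 := by
    have := hB e'
    rw [← two_smul ℝ] at this
    exact (smul_eq_zero.1 this).resolve_left two_ne_zero
  rw [hP]
  congr 2
  simp only [map_add, map_smul, hr, hY, LinearMap.add_apply, LinearMap.smul_apply, hB0]
  rw [smul_eq_mul, mul_one]
  congr 1
  have h3 : B x x + t • B e' x + t • (B x e' + t • (0 : Fin n → ℝ)) = B x x := by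
    have : B x x + t • B e' x + t • (B x e' + t • (0 : Fin n → ℝ)) =
        B x x + t • (B e' x + B x e') := by
      module
    rw [this, hB x, smul_zero, add_zero]
  simpa using h3

theorem quad_path (hq : IsHyperbolic q e) {ρ : ℝ} {y m : Fin n → ℝ} {t₀ : ℝ}
    (h : ∀ t, t₀ ≤ t → MvPolynomial.eval ((ρ + t) • (y + t • e) - m) q ≠ 0) :
    InOpen q e ((ρ + t₀) • (y + t₀ • e) - m) := by
  obtain ⟨R, hR, hR'⟩ := exists_C_add hq y
  obtain ⟨R2, hR2, hR2'⟩ := exists_C_add hq m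
  set τ : ℝ := max (|ρ| + |t₀| + 2 * R + 2 * R2 + 2) 0 with hτ
  have hτ1 : |ρ| + |t₀| + 2 * R + 2 * R2 + 2 ≤ τ := le_max_left _ _
  have hc : Continuous fun s : ℝ => (ρ + (t₀ + s ^ 2)) • (y + (t₀ + s ^ 2) • e) - m := by
    fun_prop
  have h1 := path_lemma (c := fun _ => e) continuous_const hc (fun _ => hq)
    (fun s => h _ (by nlinarith [sq_nonneg s])) (τ₀ := τ) ?_ 0
  · simpa using h1
  · set T := t₀ + τ ^ 2 with hT
    have hρ := neg_abs_le ρ
    have ht := neg_abs_le t₀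
    have hτ2 : τ ≤ τ ^ 2 := by nlinarith [abs_nonneg ρ, abs_nonneg t₀]
    have hT1 : 2 * R + 2 * R2 + 2 + |ρ| ≤ T := by linarith
    have hρT : 2 * R2 + 2 ≤ ρ + T := by linarith
    have hT2 : 1 ≤ T / 2 := by linarith [abs_nonneg ρ]
    have h2 : (ρ + T) • (y + T • e) - m =
        (ρ + T) • (y + (T / 2) • e) + (((ρ + T) * (T / 2)) • e - m) := by
      module
    show InOpen q e ((ρ + T) • (y + T • e) - m)
    rw [h2]
    refine ((hR' (T / 2) (by linarith [abs_nonneg ρ])).1.smul hq (by linarith)).add hq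
      (hR2' _ ?_).2
    nlinarith

theorem quad_cone (hq : IsHyperbolic q e) (hBK : ∀ x, B x x ∈ hypCone q e)
    (hP : ∀ x, MvPolynomial.eval x P = MvPolynomial.eval (r x • Y x - B x x) q)
    (hr : r e' = 1) (hY : Y e' = e) (hB : ∀ x, B e' x + B x e' = 0)
    (h0 : MvPolynomial.eval 0 q = 0) (x : Fin N → ℝ) :
    x ∈ hypCone P e' ↔ (0 < r x ∧ r x • Y x - B x x ∈ hypCone q e) ∨
      (r x = 0 ∧ Y x ∈ hypCone q e ∧ -B x x ∈ hypCone q e) := by
  have hPh := quad_hyp hq hBK hP hr hY hB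
  obtain ⟨D, hD⟩ := hPh.1
  rw [mem_hypCone_iff hD]
  simp only [quad_line hP hr hY hB]
  set ρ := r x with hρ
  set y := Y x with hy
  set m := B x x with hm
  have hmK : m ∈ hypCone q e := hBK x
  constructor
  · intro h
    have hin : ∀ t : ℝ, 0 < t → InOpen q e ((ρ + t) • (y + t • e) - m) := fun t ht =>
      quad_path hq fun s hs => h s (lt_of_lt_of_le ht hs)
    have hlim : Filter.Tendsto (fun t : ℝ => (ρ + t) • (y + t • e) - m) (nhdsWithin 0 (Set.Ioi 0))
        (nhds (ρ • y - m)) := by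
      have hc : Continuous fun t : ℝ => (ρ + t) • (y + t • e) - m := by fun_prop
      have := (hc.tendsto 0).mono_left (nhdsWithin_le_nhds (s := Set.Ioi 0))
      simpa using this
    have hK0 : ρ • y - m ∈ hypCone q e := by
      refine (isClosed_K hq).mem_of_tendsto hlim ?_
      filter_upwards [self_mem_nhdsWithin] with t ht
      exact (hin t ht).mem hq
    rcases lt_trichotomy ρ 0 with h1 | h1 | h1
    · exfalso
      have h2 := hin (-ρ) (by linarith)
      rw [add_neg_cancel, zero_smul, zero_sub] at h2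
      have h3 := K_add_open hq hmK h2
      rw [add_neg_cancel] at h3
      have h4 := h3 0 le_rfl
      rw [zero_smul, add_zero] at h4
      exact h4 h0
    · right
      refine ⟨h1, ?_, ?_⟩
      · have h2 : ∀ t : ℝ, 0 < t → y + t • e ∈ hypCone q e := by
          intro t ht
          have h3 := K_add hq ((hin t ht).mem hq) hmK
          rw [h1, zero_add, sub_add_cancel] at h3
          have h4 := K_smul hq h3 (inv_nonneg.2 ht.le)
          rwa [smul_smul, inv_mul_cancel₀ ht.ne', one_smul] at h4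
        have hlim2 : Filter.Tendsto (fun t : ℝ => y + t • e) (nhdsWithin 0 (Set.Ioi 0))
            (nhds y) := by
          have hc : Continuous fun t : ℝ => y + t • e := by fun_prop
          have := (hc.tendsto 0).mono_left (nhdsWithin_le_nhds (s := Set.Ioi 0))
          simpa using this
        refine (isClosed_K hq).mem_of_tendsto hlim2 ?_
        filter_upwards [self_mem_nhdsWithin] with t ht
        exact h2 t ht
      · rw [h1, zero_smul, zero_sub] at hK0
        exact hK0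
    · left
      exact ⟨h1, hK0⟩
  · rintro (⟨h1, h2⟩ | ⟨h1, h2, h3⟩) t ht
    · have h4 : (ρ + t) • (y + t • e) - m =
          (((ρ + t) / ρ) • (ρ • y - m) + (t / ρ) • m) + ((ρ + t) * t) • e := by
        have h5 : (ρ + t) / ρ = 1 + t / ρ := by rw [add_div, div_self h1.ne']
        have h6 : (t / ρ) * ρ = t := div_mul_cancel₀ _ h1.ne'
        rw [h5]
        have h7 : (1 + t / ρ) • (ρ • y - m) + (t / ρ) • m = (ρ + (t / ρ) * ρ) • y - m := by
          module
        rw [h7, h6]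
        module
      rw [h4]
      have h5 : InOpen q e ((((ρ + t) / ρ) • (ρ • y - m) + (t / ρ) • m) + ((ρ + t) * t) • e) :=
        K_add_open hq (K_add hq (K_smul hq h2 (by positivity)) (K_smul hq hmK (by positivity)))
          ((e_inOpen hq).smul hq (by positivity))
      simpa using h5 0 le_rfl
    · rw [h1, zero_add]
      have h4 : t • (y + t • e) - m = (t • y + -m) + (t * t) • e := by module
      rw [h4]
      have h5 : InOpen q e ((t • y + -m) + (t * t) • e) :=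
        K_add_open hq (K_add hq (K_smul hq h2 ht.le) h3)
          ((e_inOpen hq).smul hq (by positivity))
      simpa using h5 0 le_rfl

end Hyp

end Vale.Agent.P256
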